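import Mathlib

/-!
Every recursively enumerable set of natural numbers is the halting set of a Post-Turing machine
with finitely many states and symbols.
-/

open Turing StateTransition

namespace Vale.Agent.P113.H760

/-- A code whose domain on one-element lists is a given r.e. set. -/
theorem exists_code_of_re {S : ℕ → Prop} (hS : REPred S) :
    ∃ c : ToPartrec.Code, ∀ n, (c.eval [n]).Dom ↔ S n := by
  have h1 : Partrec fun n : ℕ => (Part.assert (S n) fun _ => Part.some ()).map fun _ => 0 :=
    hS.map (Computable.const 0).to₂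
  have h2 := Nat.Partrec'.part_iff₁.2 h1
  obtain ⟨c, hc⟩ := ToPartrec.Code.exists_code h2
  refine ⟨c, fun n => ?_⟩
  have := hc ⟨[n], rfl⟩
  simp only at this
  rw [this]
  simp only [Part.map_eq_map, Part.map_Dom]
  constructor
  · intro h
    exact h.1
  · intro h
    exact ⟨h, trivial⟩

open PartrecToTM2 in
/-- The four-stack machine, with the start label as default label. -/
theorem tm2_dom (c : ToPartrec.Code) (v : List ℕ) :
    (@TM2.eval K' (fun _ => Γ') PartrecToTM2.Λ' (Option Γ') ⟨trNormal c Cont'.halt⟩ _ _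
      PartrecToTM2.tr K'.main (trList v)).Dom ↔ (c.eval v).Dom := by
  have h1 : (@TM2.init K' (fun _ => Γ') PartrecToTM2.Λ' (Option Γ') ⟨trNormal c Cont'.halt⟩ _ _
      K'.main (trList v)) = PartrecToTM2.init c v := by
    unfold TM2.init PartrecToTM2.init
    congr 1
    funext k
    cases k <;> simp [Function.update, K'.elim]
  unfold TM2.eval
  rw [h1, PartrecToTM2.tr_eval]
  simp only [Part.map_eq_map]
  exact Iff.rfl

/-- A machine with a finite support is equivalent to a machine with finitely many states. -/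
theorem exists_finite_states {Γ Λ : Type} [Inhabited Γ] [Inhabited Λ] (M : TM0.Machine Γ Λ)
    (S : Finset Λ) (ss : TM0.Supports M (S : Set Λ)) :
    ∃ (Λ' : Type) (_ : Inhabited Λ') (_ : Finite Λ') (M' : TM0.Machine Γ Λ'),
      ∀ l, (eval (TM0.step M') (TM0.init l)).Dom ↔ (eval (TM0.step M) (TM0.init l)).Dom := by
  classical
  let d : {q // q ∈ S} := ⟨default, ss.1⟩
  let _ : Inhabited {q // q ∈ S} := ⟨d⟩
  let g1 : Λ → {q // q ∈ S} := fun q => if h : q ∈ S then ⟨q, h⟩ else d
  let f : PointedMap Γ Γ := ⟨id, rfl⟩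
  let M' : TM0.Machine Γ {q // q ∈ S} := TM0.Machine.map M f f g1 Subtype.val
  refine ⟨{q // q ∈ S}, inferInstance, inferInstance, M', fun l => ?_⟩
  have hr : Respects (TM0.step M) (TM0.step M')
      fun a b => a.q ∈ (S : Set Λ) ∧ TM0.Cfg.map f g1 a = b := by
    refine TM0.Machine.map_respects M f f ⟨g1, ?_⟩ Subtype.val ss (fun x => rfl) ?_
    · simp only [g1]
      rw [dif_pos (show default ∈ S from ss.1)]
      rfl
    · intro q hq
      have hq' : q ∈ S := hq
      change ((g1 q : {q // q ∈ S}) : Λ) = q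
      simp only [g1]
      rw [dif_pos hq']
  refine StateTransition.tr_eval_dom hr ⟨?_, ?_⟩
  · exact ss.1
  · have e1 : g1 default = default := by
      simp only [g1]
      rw [dif_pos (show default ∈ S from ss.1)]
      rfl
    have e2 : Tape.map f (Tape.mk₁ l) = Tape.mk₁ l := by
      rw [Tape.map_mk₁]
      congr 1
      exact List.map_id l
    change TM0.Cfg.mk (g1 default) (Tape.map f (Tape.mk₁ l)) = TM0.Cfg.mk default (Tape.mk₁ l)
    rw [e1, e2]

instance : Finite PartrecToTM2.K' := by
  refine Finite.of_surjective (fun i : Fin 4 => ((match i with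
    | 0 => PartrecToTM2.K'.main
    | 1 => PartrecToTM2.K'.rev
    | 2 => PartrecToTM2.K'.aux
    | 3 => PartrecToTM2.K'.stack) : PartrecToTM2.K')) ?_
  intro k
  cases k
  · exact ⟨0, rfl⟩
  · exact ⟨1, rfl⟩
  · exact ⟨2, rfl⟩
  · exact ⟨3, rfl⟩

instance : Finite (TM2to1.Γ' PartrecToTM2.K' (fun _ => PartrecToTM2.Γ')) := by
  unfold TM2to1.Γ'
  infer_instance

/-- The input symbols. -/
noncomputable def inSym (a : PartrecToTM2.Γ') :
    TM2to1.Γ' PartrecToTM2.K' (fun _ => PartrecToTM2.Γ') :=
  (false, Function.update (fun _ => none) PartrecToTM2.K'.main (some a))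

/-- The first input symbol. -/
noncomputable def inSym0 : TM2to1.Γ' PartrecToTM2.K' (fun _ => PartrecToTM2.Γ') :=
  (true, Function.update (fun _ => none) PartrecToTM2.K'.main (some PartrecToTM2.Γ'.cons))

theorem trInit_trList (n : ℕ) :
    TM2to1.trInit (Γ := fun _ => PartrecToTM2.Γ') PartrecToTM2.K'.main
      (PartrecToTM2.trList [n]) =
      inSym0 :: (PartrecToTM2.trNat n).reverse.map inSym := by
  unfold TM2to1.trInit
  simp only [PartrecToTM2.trList, List.reverse_append, List.reverse_cons, List.reverse_nil,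
    List.nil_append, List.cons_append]
  rfl

open PartrecToTM2 in
/-- Halting sets of finite Post-Turing machines: universality. -/
theorem exists_tm0_of_re {S : ℕ → Prop} (hS : REPred S) :
    ∃ (Γ Λ : Type) (_ : Inhabited Γ) (_ : Finite Γ) (_ : Inhabited Λ) (_ : Finite Λ)
      (M : TM0.Machine Γ Λ) (s0 : Γ) (s : PartrecToTM2.Γ' → Γ),
      ∀ n, (eval (TM0.step M) (TM0.init (s0 :: (trNat n).reverse.map s))).Dom ↔ S n := by
  obtain ⟨c, hc⟩ := exists_code_of_re hS
  let _ : Inhabited PartrecToTM2.Λ' := ⟨trNormal c Cont'.halt⟩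
  let M2 : PartrecToTM2.Λ' → TM2.Stmt (fun _ : K' => Γ') PartrecToTM2.Λ' (Option Γ') := tr
  let M1 := TM2to1.tr M2
  let M0 := TM1to0.tr M1
  have hs2 : TM2.Supports M2 (codeSupp c Cont'.halt) := PartrecToTM2.tr_supports c Cont'.halt
  have hs1 : TM1.Supports M1 (TM2to1.trSupp M2 (codeSupp c Cont'.halt)) :=
    TM2to1.tr_supports M2 hs2
  have hs0 := TM1to0.tr_supports M1 hs1
  obtain ⟨Λ', i1, i2, M', hM'⟩ := exists_finite_states M0 _ hs0
  refine ⟨TM2to1.Γ' K' (fun _ => Γ'), Λ', inferInstance, inferInstance, i1, i2, M', inSym0, inSym,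
    fun n => ?_⟩
  rw [← trInit_trList, hM', ← hc, ← tm2_dom]
  have h1 := TM2to1.tr_eval_dom M2 K'.main (trList [n])
  have h2 := TM1to0.tr_eval M1 (TM2to1.trInit (Γ := fun _ => Γ') K'.main (trList [n]))
  rw [← h2] at h1
  exact h1

end Vale.Agent.P113.H760
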