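import Vale.Agent.P113.H760.Sim
import Vale.Agent.P113.H760.TMZero
import Mathlib

/-!
Universality of piecewise affine systems on rational boxes, with a computable initial point.
-/

open Turing StateTransition

namespace Vale.Agent.P113.H760

/-- Recursion along binary digits is primitive recursive. -/
theorem primrec_bits {α : Type*} [Primcodable α] (f : ℕ → α) (a0 : α) (g : ℕ → α → α)
    (hg : Primrec₂ g) (h0 : f 0 = a0) (hf : ∀ n, 0 < n → f n = g (n % 2) (f (n / 2))) :
    Primrec f := by
  have key : Primrec₂ (fun (_ : Unit) (n : ℕ) => f n) := by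
    refine Primrec.nat_strong_rec _
      (g := fun _ l => if l.length = 0 then some a0 else
        (l[l.length / 2]?).map (g (l.length % 2))) ?_ ?_
    · have hlen : Primrec fun p : Unit × List α => p.2.length :=
          Primrec.list_length.comp Primrec.snd
      refine Primrec.ite ?_ (Primrec.const _) ?_
      · exact Primrec.eq.comp hlen (Primrec.const 0)
      · refine Primrec.option_map
          (Primrec.list_getElem?.comp Primrec.snd
            (Primrec.nat_div.comp hlen (Primrec.const 2))) ?_
        exact (hg.comp (Primrec.nat_mod.comp (hlen.comp Primrec.fst) (Primrec.const 2))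
          Primrec.snd).to₂
    · intro _ n
      simp only [List.length_map, List.length_range]
      by_cases hn : n = 0
      · simp [hn, h0]
      · have h1 : n / 2 < n := by omega
        rw [if_neg hn, hf n (by omega)]
        simp [h1]
  exact key.comp (Primrec.const ()) Primrec.id

open PartrecToTM2 in
/-- Binary digits of `trNat`. -/
theorem trNat_rec (n : ℕ) (hn : 0 < n) :
    trNat n = (if n % 2 = 1 then Γ'.bit1 else Γ'.bit0) :: trNat (n / 2) := by
  have h1 : ∀ m : ℕ, trNat m = trNum (Num.ofNat' m) := by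
    intro m
    rw [trNat, Num.ofNat'_eq]
  rw [h1, h1]
  have h2 : Nat.bit (n % 2 = 1) (n / 2) = n := by
    rw [Nat.bit_val]
    by_cases h : n % 2 = 1
    · simp [h]; omega
    · simp [h]; omega
  conv_lhs => rw [← h2]
  rw [Num.ofNat'_bit]
  by_cases h : n % 2 = 1
  · simp only [h, decide_true, cond_true, if_true]
    cases hm : Num.ofNat' (n / 2) with
    | zero => rfl
    | pos m => rfl
  · simp only [h, decide_false, cond_false, if_false]
    cases hm : Num.ofNat' (n / 2) with
    | zero =>
      exfalso
      have h3 : ((Num.ofNat' (n / 2) : Num) : ℕ) = 0 := by rw [hm]; rfl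
      rw [Num.ofNat'_eq, Num.to_of_nat] at h3
      omega
    | pos m => rfl

section

variable {Γ Λ : Type} (D : Dig (Sym Γ Λ)) (s : PartrecToTM2.Γ' → Γ)

/-- Numerator and denominator of the value of the loaded digits. -/
noncomputable def nd (n : ℕ) : ℕ × ℕ :=
  (PartrecToTM2.trNat n).foldr
    (fun x p => (p.1 * (2 * D.N) + 2 * D.dig (.tape (s x)), p.2 * (2 * D.N))) (0, 1)

theorem nd_zero : nd D s 0 = (0, 1) := by simp [nd]

theorem nd_rec (n : ℕ) (hn : 0 < n) : nd D s n =
    ((nd D s (n / 2)).1 * (2 * D.N) + 2 * D.dig (.tape (s (if n % 2 = 1 then .bit1 else .bit0))),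
      (nd D s (n / 2)).2 * (2 * D.N)) := by
  unfold nd
  rw [trNat_rec n hn]
  rfl

theorem nd_primrec : Primrec (nd D s) := by
  refine primrec_bits (nd D s) (0, 1)
    (fun r p => (p.1 * (2 * D.N) + (if r = 1 then 2 * D.dig (.tape (s .bit1)) else
      2 * D.dig (.tape (s .bit0))), p.2 * (2 * D.N))) ?_ (nd_zero D s) ?_
  · refine Primrec.pair ?_ ?_
    · refine Primrec.nat_add.comp ?_ ?_
      · exact Primrec.nat_mul.comp (Primrec.fst.comp Primrec.snd) (Primrec.const _)
      · exact Primrec.ite (Primrec.eq.comp Primrec.fst (Primrec.const 1)) (Primrec.const _)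
          (Primrec.const _)
    · exact Primrec.nat_mul.comp (Primrec.snd.comp Primrec.snd) (Primrec.const _)
  · intro n hn
    rw [nd_rec D s n hn]
    by_cases h : n % 2 = 1
    · simp [h]
    · simp [h]

theorem nd_pos (n : ℕ) : 0 < (nd D s n).2 := by
  unfold nd
  induction PartrecToTM2.trNat n with
  | nil => simp
  | cons x l ih =>
    simp only [List.foldr_cons]
    have := D.pos
    positivity

theorem nd_ext (n : ℕ) :
    D.ext (((PartrecToTM2.trNat n).reverse.map s).map Sym.tape) 0 =
      ((nd D s n).1 : ℚ) / (nd D s n).2 := by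
  unfold nd
  induction PartrecToTM2.trNat n with
  | nil => simp
  | cons x l ih =>
    simp only [List.foldr_cons, List.reverse_cons, List.map_append, List.map_cons, List.map_nil]
    rw [D.ext_append]
    have hpos : 0 < ((l.foldr (fun x p => (p.1 * (2 * D.N) + 2 * D.dig (.tape (s x)),
        p.2 * (2 * D.N))) ((0, 1) : ℕ × ℕ)).2 : ℚ) := by
      have h : 0 < (l.foldr (fun x p => (p.1 * (2 * D.N) + 2 * D.dig (.tape (s x)),
        p.2 * (2 * D.N))) ((0, 1) : ℕ × ℕ)).2 := by
        clear ih
        induction l with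
        | nil => simp
        | cons x l ih =>
          simp only [List.foldr_cons]
          have := D.pos
          positivity
      exact_mod_cast h
    have hlen : ((l.foldr (fun x p => (p.1 * (2 * D.N) + 2 * D.dig (.tape (s x)),
        p.2 * (2 * D.N))) ((0, 1) : ℕ × ℕ)).2 : ℚ) = D.b ^ l.length := by
      clear ih hpos
      induction l with
      | nil => simp
      | cons x l ih =>
        simp only [List.foldr_cons, List.length_cons, pow_succ]
        push_cast
        rw [ih]
        simp [Dig.b]
    rw [D.ext_affine, ih]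
    simp only [List.length_map, List.length_reverse]
    rw [← hlen]
    have hb := D.b_pos
    have hN : (D.N : ℚ) ≠ 0 := by exact_mod_cast D.pos.ne'
    simp only [Dig.ext_cons, Dig.ext_nil, Dig.b]
    push_cast
    field_simp
    ring

end

/-- Universality: for every r.e. set `S` there is a piecewise affine system on rational boxes such
that the orbit of the computable rational point `(num n / den n, y0)` halts if `n ∈ S` and runs
forever otherwise. -/
theorem universal (S : ℕ → Prop) (hS : REPred S) :
    ∃ (F : PAM) (num den : ℕ → ℕ) (y0 : ℚ), Computable num ∧ Computable den ∧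
      (∀ n, 0 < den n) ∧
      (∀ n, (1 / 4 : ℚ) ≤ (num n : ℚ) / den n ∧ (num n : ℚ) / den n ≤ 1 / 2) ∧
      (1 / 4 ≤ y0 ∧ y0 ≤ 1 / 2) ∧
      (∀ n, S n → F.Halts ((num n : ℚ) / den n, y0)) ∧
      (∀ n, ¬ S n → F.Runs ((num n : ℚ) / den n, y0)) := by
  obtain ⟨Γ, Λ, _, _, _, _, M, s0, s, hM⟩ := exists_tm0_of_re hS
  obtain ⟨D, h0⟩ := exists_dig (Sym.tape (default : Γ) : Sym Γ Λ)
  obtain ⟨F, hF, hH⟩ := exists_pam M D
  set b : ℕ := 2 * D.N with hb
  set d1 : ℕ := 2 * D.dig (.st (default : Λ)) with hd1
  set d2 : ℕ := 2 * D.dig (.tape s0) with hd2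
  let num : ℕ → ℕ := fun n => (b ^ 2 + d1 * b + d2) * (nd D s n).2 + (nd D s n).1
  let den : ℕ → ℕ := fun n => 4 * b ^ 2 * (nd D s n).2
  have hb0 : 0 < b := by have := D.pos; omega
  have hden : ∀ n, 0 < den n := by
    intro n
    have := nd_pos D s n
    simp only [den]
    positivity
  have hco : ∀ n, (num n : ℚ) / den n =
      D.co (.st default :: ((s0 :: (PartrecToTM2.trNat n).reverse.map s).map Sym.tape)) 0 := by
    intro n
    have h1 := nd_ext D s n
    have h2 : ((nd D s n).2 : ℚ) ≠ 0 := by exact_mod_cast (nd_pos D s n).ne'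
    have hbq : (b : ℚ) ≠ 0 := by exact_mod_cast hb0.ne'
    have hbb : D.b = b := by simp [Dig.b, hb]
    unfold Dig.co
    simp only [List.map_cons, Dig.ext_cons, hbb]
    rw [h1]
    simp only [num, den]
    push_cast
    rw [hd1, hd2]
    push_cast
    field_simp
    ring
  have hrep : ∀ n, Rep M D (TM0.init (s0 :: (PartrecToTM2.trNat n).reverse.map s))
      ((num n : ℚ) / den n, D.co [.hash] 0) := by
    intro n
    refine ⟨[], s0 :: (PartrecToTM2.trNat n).reverse.map s, [], rfl, ?_⟩
    rw [hco n]
    rfl
  refine ⟨F, num, den, D.co [.hash] 0, ?_, ?_, hden, ?_, ?_, ?_, ?_⟩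
  · refine Primrec.to_comp ?_
    exact Primrec.nat_add.comp (Primrec.nat_mul.comp (Primrec.const _)
      (Primrec.snd.comp (nd_primrec D s))) (Primrec.fst.comp (nd_primrec D s))
  · refine Primrec.to_comp ?_
    exact Primrec.nat_mul.comp (Primrec.const _) (Primrec.snd.comp (nd_primrec D s))
  · intro n
    rw [hco n]
    exact ⟨D.co_ge _ le_rfl, D.co_le _ zero_le_one⟩
  · exact ⟨D.co_ge _ le_rfl, D.co_le _ zero_le_one⟩
  · intro n hn
    exact halts_of_dom hF h0 hH (hrep n) ((hM n).2 hn)
  · intro n hn
    exact runs_of_not_dom hF h0 (hrep n) (fun h => hn ((hM n).1 h))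

end Vale.Agent.P113.H760
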