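import Mathlib.Data.Rat.Defs
import Mathlib.Algebra.Order.Field.Rat
import Mathlib.Data.Fin.Basic
import Mathlib.Data.List.Basic
import Mathlib.Tactic.NormNum

/-!
Interface between the computation part and the flow part of P113: finite systems of
axis-parallel affine rules between closed rational boxes of the square `[1/4, 3/4]^2`.
-/

namespace Vale.Agent.P113.H760

/-- The closed rational box `[a1, a1 + w1] × [a2, a2 + w2]`. -/
structure Box where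
  a1 : ℚ
  w1 : ℚ
  a2 : ℚ
  w2 : ℚ

/-- Membership of a rational point in a closed box. -/
def Box.Mem (B : Box) (P : ℚ × ℚ) : Prop :=
  B.a1 ≤ P.1 ∧ P.1 ≤ B.a1 + B.w1 ∧ B.a2 ≤ P.2 ∧ P.2 ≤ B.a2 + B.w2

/-- Two closed boxes are separated by a vertical or by a horizontal strip. -/
def Box.Sep (B B' : Box) : Prop :=
  (B.a1 + B.w1 < B'.a1 ∨ B'.a1 + B'.w1 < B.a1) ∨ (B.a2 + B.w2 < B'.a2 ∨ B'.a2 + B'.w2 < B.a2)

/-- A nondegenerate box inside `[1/4, 3/4]^2`. -/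
def Box.Good (B : Box) : Prop :=
  (1 / 4 ≤ B.a1 ∧ 0 < B.w1 ∧ B.a1 + B.w1 ≤ 3 / 4) ∧ (1 / 4 ≤ B.a2 ∧ 0 < B.w2 ∧ B.a2 + B.w2 ≤ 3 / 4)

/-- A rule maps the source box `src` by the increasing diagonal affine map
`x_i ↦ c_i + r_i (x_i - a_i)`. -/
structure Rule where
  src : Box
  c1 : ℚ
  r1 : ℚ
  c2 : ℚ
  r2 : ℚ

/-- The target box of a rule. -/
def Rule.tgt (R : Rule) : Box := ⟨R.c1, R.r1 * R.src.w1, R.c2, R.r2 * R.src.w2⟩

/-- The affine map of a rule. -/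
def Rule.map (R : Rule) (P : ℚ × ℚ) : ℚ × ℚ :=
  (R.c1 + R.r1 * (P.1 - R.src.a1), R.c2 + R.r2 * (P.2 - R.src.a2))

/-- Positive ratios, source and target in `[1/4, 3/4]^2`, and the intermediate boxes (source
corner, target size) also in `[1/4, 3/4]^2`. -/
def Rule.Good (R : Rule) : Prop :=
  R.src.Good ∧ R.tgt.Good ∧ 0 < R.r1 ∧ 0 < R.r2 ∧
    R.src.a1 + R.r1 * R.src.w1 ≤ 3 / 4 ∧ R.src.a2 + R.r2 * R.src.w2 ≤ 3 / 4

/-- A finite injective piecewise affine system with halting boxes. -/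
structure PAM where
  n : ℕ
  rule : Fin n → Rule
  m : ℕ
  halt : Fin m → Box
  rule_good : ∀ i, (rule i).Good
  halt_good : ∀ j, (halt j).Good
  src_sep : ∀ i j, i ≠ j → ((rule i).src).Sep ((rule j).src)
  halt_sep : ∀ i j, ((rule i).src).Sep (halt j)
  tgt_sep : ∀ i j, i ≠ j → ((rule i).tgt).Sep ((rule j).tgt)

/-- One step of a system. -/
def PAM.Step (S : PAM) (P P' : ℚ × ℚ) : Prop :=
  ∃ i, ((S.rule i).src).Mem P ∧ P' = (S.rule i).map P

/-- The orbit of `P₀` reaches a halting box after finitely many steps. -/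
def PAM.Halts (S : PAM) (P₀ : ℚ × ℚ) : Prop :=
  ∃ (K : ℕ) (P : ℕ → ℚ × ℚ), P 0 = P₀ ∧ (∀ k < K, S.Step (P k) (P (k + 1))) ∧
    ∃ j, (S.halt j).Mem (P K)

/-- The orbit of `P₀` stays in source boxes forever. -/
def PAM.Runs (S : PAM) (P₀ : ℚ × ℚ) : Prop :=
  ∃ P : ℕ → ℚ × ℚ, P 0 = P₀ ∧ ∀ k, S.Step (P k) (P (k + 1))

end Vale.Agent.P113.H760
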