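import Vale.Agent.P113.H760.Words
import Mathlib

/-!
A reversible two-stack rewriting system simulating a Post-Turing machine.
-/

open Turing

namespace Vale.Agent.P113.H760

/-- History records: state, symbol read, and the top of the left stack (`none` for the bottom). -/
abbrev Hist (Γ Λ : Type) := Λ × Γ × Option Γ

/-- Stack symbols. -/
inductive Sym (Γ Λ : Type)
  | tape (a : Γ)
  | st (q : Λ)
  | mk (q : Λ)
  | out (h : Hist Γ Λ)
  | ret
  | hash
  | hist (h : Hist Γ Λ)

/-- Indices of the rules. -/
inductive RI (Γ Λ : Type)
  | S (q : Λ) (a : Γ) (x : Option Γ)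
  | O1 (h : Hist Γ Λ) (c : Γ)
  | O2 (h : Hist Γ Λ)
  | R1 (c : Γ)
  | R2 (q : Λ)

section

variable {Γ Λ : Type}

/-- `Sym` embeds into a sum type. -/
def Sym.toSum : Sym Γ Λ → (Γ ⊕ Λ) ⊕ (Λ ⊕ Hist Γ Λ) ⊕ (Bool ⊕ Hist Γ Λ)
  | .tape a => .inl (.inl a)
  | .st q => .inl (.inr q)
  | .mk q => .inr (.inl (.inl q))
  | .out h => .inr (.inl (.inr h))
  | .ret => .inr (.inr (.inl true))
  | .hash => .inr (.inr (.inl false))
  | .hist h => .inr (.inr (.inr h))

theorem Sym.toSum_inj : Function.Injective (Sym.toSum : Sym Γ Λ → _) := by
  intro x y h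
  cases x <;> cases y <;> simp_all [Sym.toSum]

instance [Finite Γ] [Finite Λ] : Finite (Sym Γ Λ) := Finite.of_injective _ Sym.toSum_inj

/-- `RI` embeds into a sum type. -/
def RI.toSum : RI Γ Λ → (Λ × Γ × Option Γ) ⊕ (Hist Γ Λ × Γ) ⊕ Hist Γ Λ ⊕ (Γ ⊕ Λ)
  | .S q a x => .inl (q, a, x)
  | .O1 h c => .inr (.inl (h, c))
  | .O2 h => .inr (.inr (.inl h))
  | .R1 c => .inr (.inr (.inr (.inl c)))
  | .R2 q => .inr (.inr (.inr (.inr q)))

theorem RI.toSum_inj : Function.Injective (RI.toSum : RI Γ Λ → _) := by
  intro x y h
  cases x <;> cases y <;> simp_all [RI.toSum]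

instance [Finite Γ] [Finite Λ] : Finite (RI Γ Λ) := Finite.of_injective _ RI.toSum_inj

/-- Symbol at the top of the left stack. -/
def top : Option Γ → Sym Γ Λ
  | none => .hash
  | some c => .tape c

/-- Left sides of the rules. -/
def lhs : RI Γ Λ → List (Sym Γ Λ) × List (Sym Γ Λ)
  | .S q a x => ([.st q, .tape a], [top x])
  | .O1 h c => ([.out h], [.tape c])
  | .O2 h => ([.out h], [.hash])
  | .R1 c => ([.ret, .tape c], [])
  | .R2 q => ([.ret, .mk q], [])

variable [Inhabited Γ] [Inhabited Λ]

/-- Right side of a machine rule. -/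
def rhsS (h : Hist Γ Λ) (a : Γ) (x : Option Γ) (q' : Λ) :
    TM0.Stmt Γ → List (Sym Γ Λ) × List (Sym Γ Λ)
  | .write a' => ([.out h, .mk q', .tape a'], [top x])
  | .move .right => ([.out h, .mk q'], [.tape a, top x])
  | .move .left => match x with
    | some c => ([.out h, .mk q', .tape c, .tape a], [])
    | none => ([.out h, .mk q', .tape default, .tape a], [.hash])

variable (M : TM0.Machine Γ Λ)

/-- Right sides of the rules; `none` for the halting left sides. -/
def rhs : RI Γ Λ → Option (List (Sym Γ Λ) × List (Sym Γ Λ))
  | .S q a x => (M q a).map fun p => rhsS (q, a, x) a x p.1 p.2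
  | .O1 h c => some ([.out h, .tape c], [])
  | .O2 h => some ([.ret], [.hash, .hist h])
  | .R1 c => some ([.ret], [.tape c])
  | .R2 q => some ([.st q], [])

omit [Inhabited Γ] [Inhabited Λ] in
theorem top_inj {x y : Option Γ} (h : (top x : Sym Γ Λ) = top y) : x = y := by
  cases x <;> cases y <;> simp_all [top]

omit [Inhabited Γ] [Inhabited Λ] in
theorem lhs_inc {i j : RI Γ Λ} (h : i ≠ j) : PInc (lhs i) (lhs j) := by
  cases i <;> cases j <;> simp only [lhs, PInc, inc_cons, inc_nil_left, inc_nil_right, or_false,
    ne_eq, reduceCtorEq, not_false_eq_true, true_or, or_true, Sym.st.injEq, Sym.tape.injEq,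
    Sym.out.injEq, Sym.mk.injEq, RI.S.injEq, RI.O1.injEq, RI.O2.injEq, RI.R1.injEq,
    RI.R2.injEq, not_true_eq_false, false_or] at h ⊢
  · rename_i q a x q' a' x'
    by_contra hc
    push Not at hc
    exact h ⟨hc.1.1, hc.1.2, top_inj hc.2⟩
  · tauto
  · assumption
  · assumption
  · assumption

omit [Inhabited Λ] in
/-- The first symbols of the right side of a machine rule. -/
theorem rhsS_fst (h : Hist Γ Λ) (a : Γ) (x : Option Γ) (q' : Λ) (s : TM0.Stmt Γ) :
    ∃ w, (rhsS h a x q' s).1 = .out h :: .mk q' :: w := by
  rcases s with (d | a')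
  · cases d
    · cases x <;> exact ⟨_, rfl⟩
    · exact ⟨_, rfl⟩
  · exact ⟨_, rfl⟩

theorem rhs_inc {i j : RI Γ Λ} (h : i ≠ j) {p p' : List (Sym Γ Λ) × List (Sym Γ Λ)}
    (hi : rhs M i = some p) (hj : rhs M j = some p') : PInc p p' := by
  have hS : ∀ {q a x p}, rhs M (.S q a x) = some p → ∃ q' w, p.1 = .out (q, a, x) :: .mk q' :: w := by
    intro q a x p hp
    simp only [rhs, Option.map_eq_some_iff] at hp
    obtain ⟨⟨q', s⟩, _, rfl⟩ := hp
    obtain ⟨w, hw⟩ := rhsS_fst (q, a, x) a x q' s
    exact ⟨q', w, hw⟩
  cases i with
  | S q a x =>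
    obtain ⟨q1, w, hw⟩ := hS hi
    left
    rw [hw]
    cases j with
    | S q' a' x' =>
      obtain ⟨q2, w', hw'⟩ := hS hj
      rw [hw']
      simp only [inc_cons]
      left
      intro hh
      simp only [Sym.out.injEq, Prod.mk.injEq] at hh
      apply h
      rw [hh.1, hh.2.1, hh.2.2]
    | O1 h' c =>
      simp only [rhs, Option.some.injEq] at hj
      subst hj
      simp
    | O2 h' =>
      simp only [rhs, Option.some.injEq] at hj
      subst hj
      simp
    | R1 c =>
      simp only [rhs, Option.some.injEq] at hj
      subst hj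
      simp
    | R2 q' =>
      simp only [rhs, Option.some.injEq] at hj
      subst hj
      simp
  | O1 h1 c1 =>
    simp only [rhs, Option.some.injEq] at hi
    subst hi
    cases j with
    | S q' a' x' =>
      obtain ⟨q2, w', hw'⟩ := hS hj
      left
      rw [hw']
      simp
    | O1 h' c =>
      simp only [rhs, Option.some.injEq] at hj
      subst hj
      left
      simp only [inc_cons, ne_eq, Sym.out.injEq, Sym.tape.injEq, inc_nil_right, or_false]
      by_contra hc
      push Not at hc
      exact h (by rw [hc.1, hc.2])
    | O2 h' =>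
      simp only [rhs, Option.some.injEq] at hj
      subst hj
      left
      simp
    | R1 c =>
      simp only [rhs, Option.some.injEq] at hj
      subst hj
      left
      simp
    | R2 q' =>
      simp only [rhs, Option.some.injEq] at hj
      subst hj
      left
      simp
  | O2 h1 =>
    simp only [rhs, Option.some.injEq] at hi
    subst hi
    cases j with
    | S q' a' x' =>
      obtain ⟨q2, w', hw'⟩ := hS hj
      left
      rw [hw']
      simp
    | O1 h' c =>
      simp only [rhs, Option.some.injEq] at hj
      subst hj
      left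
      simp
    | O2 h' =>
      simp only [rhs, Option.some.injEq] at hj
      subst hj
      right
      simp only [inc_cons, ne_eq, not_true_eq_false, Sym.hist.injEq, inc_nil_right, or_false,
        false_or]
      intro hh
      exact h (by rw [hh])
    | R1 c =>
      simp only [rhs, Option.some.injEq] at hj
      subst hj
      right
      simp
    | R2 q' =>
      simp only [rhs, Option.some.injEq] at hj
      subst hj
      left
      simp
  | R1 c1 =>
    simp only [rhs, Option.some.injEq] at hi
    subst hi
    cases j with
    | S q' a' x' =>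
      obtain ⟨q2, w', hw'⟩ := hS hj
      left
      rw [hw']
      simp
    | O1 h' c =>
      simp only [rhs, Option.some.injEq] at hj
      subst hj
      left
      simp
    | O2 h' =>
      simp only [rhs, Option.some.injEq] at hj
      subst hj
      right
      simp
    | R1 c =>
      simp only [rhs, Option.some.injEq] at hj
      subst hj
      right
      simp only [inc_cons, ne_eq, Sym.tape.injEq, inc_nil_right, or_false]
      intro hh
      exact h (by rw [hh])
    | R2 q' =>
      simp only [rhs, Option.some.injEq] at hj
      subst hj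
      left
      simp
  | R2 q1 =>
    simp only [rhs, Option.some.injEq] at hi
    subst hi
    cases j with
    | S q' a' x' =>
      obtain ⟨q2, w', hw'⟩ := hS hj
      left
      rw [hw']
      simp
    | O1 h' c =>
      simp only [rhs, Option.some.injEq] at hj
      subst hj
      left
      simp
    | O2 h' =>
      simp only [rhs, Option.some.injEq] at hj
      subst hj
      left
      simp
    | R1 c =>
      simp only [rhs, Option.some.injEq] at hj
      subst hj
      left
      simp
    | R2 q' =>
      simp only [rhs, Option.some.injEq] at hj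
      subst hj
      left
      simp only [inc_cons, ne_eq, Sym.st.injEq, inc_nil_right, or_false]
      intro hh
      exact h (by rw [hh])

/-- One rewriting step on pairs of words. -/
inductive WS : List (Sym Γ Λ) × List (Sym Γ Λ) → List (Sym Γ Λ) × List (Sym Γ Λ) → Prop
  | step (i : RI Γ Λ) (p : List (Sym Γ Λ) × List (Sym Γ Λ)) (hp : rhs M i = some p)
      (U V : List (Sym Γ Λ)) : WS ((lhs i).1 ++ U, (lhs i).2 ++ V) (p.1 ++ U, p.2 ++ V)

/-- Outward loop. -/
theorem ws_out (h : Hist Γ Λ) (l : List Γ) (W H : List (Sym Γ Λ)) :
    Relation.ReflTransGen (WS M) (.out h :: W, l.map Sym.tape ++ .hash :: H)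
      (.out h :: (l.reverse.map Sym.tape ++ W), .hash :: H) := by
  induction l generalizing W with
  | nil => exact Relation.ReflTransGen.refl
  | cons c l ih =>
    have h1 : WS M (.out h :: W, (c :: l).map Sym.tape ++ .hash :: H)
        (.out h :: .tape c :: W, l.map Sym.tape ++ .hash :: H) :=
      WS.step (.O1 h c) _ rfl W (l.map Sym.tape ++ .hash :: H)
    refine Relation.ReflTransGen.head h1 ?_
    have := ih (.tape c :: W)
    simpa using this

/-- Return loop. -/
theorem ws_ret (l : List Γ) (q : Λ) (W B : List (Sym Γ Λ)) :
    Relation.ReflTransGen (WS M) (.ret :: (l.map Sym.tape ++ .mk q :: W), B)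
      (.st q :: W, l.reverse.map Sym.tape ++ B) := by
  induction l generalizing B with
  | nil => exact Relation.ReflTransGen.single (WS.step (.R2 q) _ rfl W B)
  | cons c l ih =>
    have h1 : WS M (.ret :: ((c :: l).map Sym.tape ++ .mk q :: W), B)
        (.ret :: (l.map Sym.tape ++ .mk q :: W), .tape c :: B) :=
      WS.step (.R1 c) _ rfl (l.map Sym.tape ++ .mk q :: W) B
    refine Relation.ReflTransGen.head h1 ?_
    have := ih (.tape c :: B)
    simpa using this

/-- From the marked configuration back to the home configuration, pushing the record. -/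
theorem ws_round (h : Hist Γ Λ) (l : List Γ) (q : Λ) (W H : List (Sym Γ Λ)) :
    Relation.ReflTransGen (WS M) (.out h :: .mk q :: W, l.map Sym.tape ++ .hash :: H)
      (.st q :: W, l.map Sym.tape ++ .hash :: .hist h :: H) := by
  refine (ws_out M h l (.mk q :: W) H).trans ?_
  have h1 : WS M (.out h :: (l.reverse.map Sym.tape ++ .mk q :: W), .hash :: H)
      (.ret :: (l.reverse.map Sym.tape ++ .mk q :: W), .hash :: .hist h :: H) :=
    WS.step (.O2 h) _ rfl (l.reverse.map Sym.tape ++ .mk q :: W) H
  refine Relation.ReflTransGen.head h1 ?_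
  have := ws_ret M l.reverse q W (.hash :: .hist h :: H)
  simpa using this

/-- The home words of a state `q`, left part `l`, right part `r` and history `H`. -/
def home (q : Λ) (l r : List Γ) (H : List (Sym Γ Λ)) : List (Sym Γ Λ) × List (Sym Γ Λ) :=
  (.st q :: r.map Sym.tape, l.map Sym.tape ++ .hash :: H)

/-- The effect of a machine statement on the tape. -/
def appStmt (s : TM0.Stmt Γ) (T : Tape Γ) : Tape Γ :=
  match s with
  | TM0.Stmt.move d => T.move d
  | TM0.Stmt.write b => T.write b

/-- Simulation of one machine step, for a nonempty right part. -/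
theorem ws_step {q q' : Λ} {a : Γ} {s : TM0.Stmt Γ} (hM : M q a = some (q', s)) (l r : List Γ)
    (H : List (Sym Γ Λ)) :
    ∃ l' r' H', Relation.TransGen (WS M) (home q l (a :: r) H) (home q' l' r' H') ∧
      appStmt s (Tape.mk' (ListBlank.mk l) (ListBlank.mk (a :: r))) =
        Tape.mk' (ListBlank.mk l') (ListBlank.mk r') := by
  -- the first rule
  have key : ∀ (x : Option Γ) (V : List (Sym Γ Λ)),
      l.map Sym.tape ++ .hash :: H = top x :: V →
      WS M (home q l (a :: r) H) ((rhsS (q, a, x) a x q' s).1 ++ r.map Sym.tape,
        (rhsS (q, a, x) a x q' s).2 ++ V) := by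
    intro x V hV
    have hp : rhs M (.S q a x) = some (rhsS (q, a, x) a x q' s) := by
      simp [rhs, hM]
    have := WS.step (M := M) (.S q a x) _ hp (r.map Sym.tape) V
    simpa [home, lhs, hV] using this
  cases l with
  | nil =>
    have k := key none H (by simp [top])
    rcases s with (d | b)
    · cases d with
      | left =>
        refine ⟨[], default :: a :: r, .hist (q, a, none) :: H, ?_, ?_⟩
        · refine Relation.TransGen.head' k ?_
          have := ws_round M (q, a, none) [] q' (.tape default :: .tape a :: r.map Sym.tape) H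
          simpa [home, rhsS] using this
        · simp only [appStmt, Tape.move_left_mk', ListBlank.cons_mk, ListBlank.head_mk, ListBlank.tail_mk]
          rfl
      | right =>
        refine ⟨[a], r, .hist (q, a, none) :: H, ?_, ?_⟩
        · refine Relation.TransGen.head' k ?_
          have := ws_round M (q, a, none) [a] q' (r.map Sym.tape) H
          simpa [home, rhsS, top] using this
        · simp only [appStmt, Tape.move_right_mk', ListBlank.cons_mk, ListBlank.head_mk, ListBlank.tail_mk]
          rfl
    · refine ⟨[], b :: r, .hist (q, a, none) :: H, ?_, ?_⟩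
      · refine Relation.TransGen.head' k ?_
        have := ws_round M (q, a, none) [] q' (.tape b :: r.map Sym.tape) H
        simpa [home, rhsS, top] using this
      · simp only [appStmt, Tape.write_mk', ListBlank.cons_mk, ListBlank.tail_mk]
        rfl
  | cons c l =>
    have k := key (some c) (l.map Sym.tape ++ .hash :: H) (by simp [top])
    rcases s with (d | b)
    · cases d with
      | left =>
        refine ⟨l, c :: a :: r, .hist (q, a, some c) :: H, ?_, ?_⟩
        · refine Relation.TransGen.head' k ?_
          have := ws_round M (q, a, some c) l q' (.tape c :: .tape a :: r.map Sym.tape) H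
          simpa [home, rhsS] using this
        · simp only [appStmt, Tape.move_left_mk', ListBlank.cons_mk, ListBlank.head_mk, ListBlank.tail_mk]
          rfl
      | right =>
        refine ⟨a :: c :: l, r, .hist (q, a, some c) :: H, ?_, ?_⟩
        · refine Relation.TransGen.head' k ?_
          have := ws_round M (q, a, some c) (a :: c :: l) q' (r.map Sym.tape) H
          simpa [home, rhsS, top] using this
        · simp only [appStmt, Tape.move_right_mk', ListBlank.cons_mk, ListBlank.head_mk, ListBlank.tail_mk]
          rfl
    · refine ⟨c :: l, b :: r, .hist (q, a, some c) :: H, ?_, ?_⟩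
      · refine Relation.TransGen.head' k ?_
        have := ws_round M (q, a, some c) (c :: l) q' (.tape b :: r.map Sym.tape) H
        simpa [home, rhsS, top] using this
      · simp only [appStmt, Tape.write_mk', ListBlank.cons_mk, ListBlank.tail_mk]
        rfl

end

end Vale.Agent.P113.H760
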