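import Vale.Agent.P113.H760.Rev
import Mathlib

/-!
From a finite Post-Turing machine to a piecewise affine system.
-/

open Turing StateTransition

namespace Vale.Agent.P113.H760

/-- A digit assignment sending a given symbol to `0`. -/
theorem exists_dig {σ : Type} [Finite σ] (s₀ : σ) : ∃ D : Dig σ, D.dig s₀ = 0 := by
  classical
  obtain ⟨n, ⟨e⟩⟩ := Finite.exists_equiv_fin σ
  have hn : 0 < n := Fin.pos (e s₀)
  refine ⟨⟨n, hn, fun s => (Equiv.swap (e s₀) ⟨0, hn⟩ (e s) : Fin n), fun s => Fin.is_lt _, ?_⟩, ?_⟩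
  · intro s t hst
    have := Fin.ext hst
    exact e.injective ((Equiv.swap (e s₀) ⟨0, hn⟩).injective this)
  · simp

section

variable {Γ Λ : Type} [Inhabited Γ] [Inhabited Λ] [Finite Γ] [Finite Λ]
variable (M : TM0.Machine Γ Λ) (D : Dig (Sym Γ Λ))

/-- The indices carrying a rule. -/
abbrev Act : Type := {i : RI Γ Λ // (rhs M i).isSome}

/-- The halting indices. -/
abbrev Hlt : Type := {i : RI Γ Λ // (rhs M i) = none}

/-- The system is built from enumerations of the active and of the halting indices. -/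
theorem exists_pam : ∃ F : PAM,
    (∀ P P' : List (Sym Γ Λ) × List (Sym Γ Λ), WS M P P' → F.Step (D.pt P) (D.pt P')) ∧
    (∀ (q : Λ) (a : Γ) (x : Option Γ) (U V : List (Sym Γ Λ)), M q a = none →
      ∃ j, (F.halt j).Mem (D.pt (.st q :: .tape a :: U, top x :: V))) := by
  obtain ⟨n, ⟨e⟩⟩ := Finite.exists_equiv_fin (Act M)
  obtain ⟨m, ⟨f⟩⟩ := Finite.exists_equiv_fin (Hlt M)
  refine ⟨{
    n := n
    rule := fun i => D.rule (lhs (e.symm i).1) ((rhs M (e.symm i).1).get (e.symm i).2)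
    m := m
    halt := fun j => D.box (lhs (f.symm j).1)
    rule_good := fun i => D.rule_good _ _
    halt_good := fun j => D.box_good _
    src_sep := ?_
    halt_sep := ?_
    tgt_sep := ?_ }, ?_, ?_⟩
  · intro i j hij
    refine D.box_sep (lhs_inc ?_)
    intro hh
    exact hij (e.symm.injective (Subtype.ext hh))
  · intro i j
    refine D.box_sep (lhs_inc ?_)
    intro hh
    have h1 := (e.symm i).2
    rw [hh, (f.symm j).2] at h1
    simp at h1
  · intro i j hij
    simp only [D.rule_tgt]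
    refine D.box_sep (rhs_inc M (i := (e.symm i).1) (j := (e.symm j).1) ?_ (by simp) (by simp))
    intro hh
    exact hij (e.symm.injective (Subtype.ext hh))
  · intro P P' h
    cases h with
    | step i p hp U V =>
      refine ⟨e ⟨i, by rw [hp]; rfl⟩, ?_, ?_⟩
      · simp only [Equiv.symm_apply_apply]
        exact D.box_mem _ _ _
      · simp only [Equiv.symm_apply_apply]
        rw [D.rule_map]
        simp [hp]
  · intro q a x U V hM
    refine ⟨f ⟨.S q a x, by simp [rhs, hM]⟩, ?_⟩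
    simp only [Equiv.symm_apply_apply]
    exact D.box_mem (lhs (.S q a x)) U V

omit [Inhabited Λ] [Finite Γ] [Finite Λ] in
/-- The word value does not change when a blank is appended. -/
theorem co_blank (h0 : D.dig (.tape default) = 0) (w : List (Sym Γ Λ)) :
    D.co (w ++ [.tape default]) 0 = D.co w 0 := by
  unfold Dig.co
  rw [D.ext_append]
  simp [h0]

variable {M D}

/-- A point represents a configuration. -/
def Rep (_M : TM0.Machine Γ Λ) (D : Dig (Sym Γ Λ)) (c : TM0.Cfg Γ Λ) (P : ℚ × ℚ) : Prop :=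
  ∃ l r H, c.Tape = Tape.mk' (ListBlank.mk l) (ListBlank.mk r) ∧ P = D.pt (home c.q l r H)

omit [Finite Γ] [Finite Λ] in
/-- A representation with nonempty right part. -/
theorem Rep.cons (h0 : D.dig (.tape default) = 0) {c : TM0.Cfg Γ Λ} {P : ℚ × ℚ}
    (h : Rep M D c P) : ∃ l a r H, c.Tape = Tape.mk' (ListBlank.mk l) (ListBlank.mk (a :: r)) ∧
      P = D.pt (home c.q l (a :: r) H) := by
  obtain ⟨l, r, H, h1, h2⟩ := h
  cases r with
  | nil =>
    refine ⟨l, default, [], H, ?_, ?_⟩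
    · rw [h1]
      congr 1
      exact Quotient.sound' (Or.inl ⟨1, rfl⟩)
    · rw [h2]
      refine Prod.ext ?_ rfl
      have := co_blank (D := D) h0 [Sym.st c.q]
      simpa [Dig.pt, home] using this.symm
  | cons a r => exact ⟨l, a, r, H, h1, h2⟩

variable {F : PAM}
    (hF : ∀ P P' : List (Sym Γ Λ) × List (Sym Γ Λ), WS M P P' → F.Step (D.pt P) (D.pt P'))

include hF

omit [Finite Γ] [Finite Λ] in
theorem Rep.step (h0 : D.dig (.tape default) = 0) {c c' : TM0.Cfg Γ Λ} {P : ℚ × ℚ}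
    (h : Rep M D c P) (hc : c' ∈ TM0.step M c) :
    ∃ P', Relation.TransGen F.Step P P' ∧ Rep M D c' P' := by
  obtain ⟨l, a, r, H, h1, h2⟩ := h.cons h0
  obtain ⟨q, T⟩ := c
  simp only at h1 h2
  subst h1
  have hc' := hc
  simp only [TM0.step, Option.mem_def, Option.map_eq_some_iff, Tape.mk'_head,
    ListBlank.head_mk, List.headI_cons] at hc'
  obtain ⟨⟨q', s⟩, hM, hcc⟩ := hc'
  obtain ⟨l', r', H', ht, htape⟩ := ws_step M hM l r H
  refine ⟨D.pt (home q' l' r' H'), ?_, ?_⟩
  · rw [h2]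
    exact ht.lift D.pt hF
  · subst hcc
    refine ⟨l', r', H', ?_, rfl⟩
    rw [← htape]
    cases s <;> rfl

omit [Finite Γ] [Finite Λ] in
theorem Rep.reaches (h0 : D.dig (.tape default) = 0) {c c' : TM0.Cfg Γ Λ} {P : ℚ × ℚ}
    (h : Rep M D c P) (hc : Reaches (TM0.step M) c c') :
    ∃ P', Relation.ReflTransGen F.Step P P' ∧ Rep M D c' P' := by
  induction hc with
  | refl => exact ⟨P, Relation.ReflTransGen.refl, h⟩
  | tail _ hs ih =>
    obtain ⟨P', h1, h2⟩ := ih
    obtain ⟨P'', h3, h4⟩ := h2.step hF h0 hs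
    exact ⟨P'', h1.trans h3.to_reflTransGen, h4⟩

omit hF in
/-- A finite chain gives a sequence. -/
theorem seq_of_reflTransGen {α : Type*} {R : α → α → Prop} {x y : α}
    (h : Relation.ReflTransGen R x y) :
    ∃ (K : ℕ) (P : ℕ → α), P 0 = x ∧ (∀ k < K, R (P k) (P (k + 1))) ∧ P K = y := by
  induction h with
  | refl => exact ⟨0, fun _ => x, rfl, by simp, rfl⟩
  | @tail b c _ hs ih =>
    obtain ⟨K, P, h1, h2, h3⟩ := ih
    refine ⟨K + 1, fun k => if k ≤ K then P k else c, by simp [h1], ?_, by simp⟩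
    intro k hk
    rcases Nat.lt_succ_iff_lt_or_eq.1 hk with hk | hk
    · have h4 : k ≤ K := by omega
      have h5 : k + 1 ≤ K := by omega
      simp only [h4, h5, if_true]
      exact h2 k hk
    · subst hk
      simp only [le_refl, if_true, show ¬ (k + 1 ≤ k) by omega, if_false]
      rw [h3]
      exact hs

omit [Inhabited Γ] [Inhabited Λ] [Finite Γ] [Finite Λ] hF in
/-- A set in which every point has a successor carries infinite sequences. -/
theorem seq_of_inv {α : Type*} {R : α → α → Prop} {G : α → Prop}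
    (hG : ∀ x, G x → ∃ y, R x y ∧ G y) {x : α} (hx : G x) :
    ∃ P : ℕ → α, P 0 = x ∧ ∀ k, R (P k) (P (k + 1)) := by
  choose! g hg1 hg2 using hG
  refine ⟨fun k => g^[k] x, rfl, fun k => ?_⟩
  have : ∀ k, G (g^[k] x) := by
    intro k
    induction k with
    | zero => exact hx
    | succ k ih => rw [Function.iterate_succ_apply']; exact hg2 _ ih
  have h2 : g^[k + 1] x = g (g^[k] x) := Function.iterate_succ_apply' g k x
  change R (g^[k] x) (g^[k + 1] x)
  rw [h2]
  exact hg1 _ (this k)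

omit [Finite Γ] [Finite Λ] in
theorem halts_of_dom (h0 : D.dig (.tape default) = 0)
    (hH : ∀ (q : Λ) (a : Γ) (x : Option Γ) (U V : List (Sym Γ Λ)), M q a = none →
      ∃ j, (F.halt j).Mem (D.pt (.st q :: .tape a :: U, top x :: V)))
    {c : TM0.Cfg Γ Λ} {P : ℚ × ℚ} (h : Rep M D c P) (hd : (eval (TM0.step M) c).Dom) :
    F.Halts P := by
  obtain ⟨c', hc'⟩ := Part.dom_iff_mem.1 hd
  obtain ⟨h1, h2⟩ := mem_eval.1 hc'
  obtain ⟨P', h3, h4⟩ := h.reaches hF h0 h1
  obtain ⟨K, Q, hQ0, hQ1, hQ2⟩ := seq_of_reflTransGen h3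
  refine ⟨K, Q, hQ0, hQ1, ?_⟩
  obtain ⟨l, a, r, H, h5, h6⟩ := h4.cons h0
  rw [hQ2, h6]
  have hM : M c'.q a = none := by
    obtain ⟨q', T⟩ := c'
    simp only at h5
    subst h5
    simpa [TM0.step] using h2
  cases l with
  | nil =>
    have e : home c'.q [] (a :: r) H =
      (.st c'.q :: .tape a :: r.map Sym.tape, top none :: H) := rfl
    rw [e]
    exact hH c'.q a none (r.map Sym.tape) H hM
  | cons c l =>
    have e : home c'.q (c :: l) (a :: r) H =
      (.st c'.q :: .tape a :: r.map Sym.tape, top (some c) :: (l.map Sym.tape ++ .hash :: H)) := rfl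
    rw [e]
    exact hH c'.q a (some c) (r.map Sym.tape) (l.map Sym.tape ++ .hash :: H) hM

omit [Finite Γ] [Finite Λ] in
theorem runs_of_not_dom (h0 : D.dig (.tape default) = 0)
    {c : TM0.Cfg Γ Λ} {P : ℚ × ℚ} (h : Rep M D c P) (hd : ¬ (eval (TM0.step M) c).Dom) :
    F.Runs P := by
  let G : ℚ × ℚ → Prop := fun P => ∃ P' c', Relation.ReflTransGen F.Step P P' ∧ Rep M D c' P' ∧
    Reaches (TM0.step M) c c'
  refine seq_of_inv (G := G) ?_ ⟨P, c, Relation.ReflTransGen.refl, h, Relation.ReflTransGen.refl⟩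
  rintro x ⟨P', c', h1, h2, h3⟩
  rcases Relation.ReflTransGen.cases_head h1 with h4 | ⟨y, h4, h5⟩
  · subst h4
    cases hs : TM0.step M c' with
    | none => exact absurd (Part.dom_iff_mem.2 ⟨c', mem_eval.2 ⟨h3, hs⟩⟩) hd
    | some c'' =>
      obtain ⟨P'', h6, h7⟩ := h2.step hF h0 (c' := c'') hs
      obtain ⟨y, h8, h9⟩ := Relation.TransGen.head'_iff.1 h6
      exact ⟨y, h8, P'', c'', h9, h7, h3.tail hs⟩
  · exact ⟨y, h4, P', c', h5, h2, h3⟩

end

end Vale.Agent.P113.H760
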