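import Vale.Agent.P113.H760.Interface
import Mathlib

/-!
Encoding of words by rationals: prefix cylinders are closed intervals, incompatible prefixes give
separated intervals.
-/

namespace Vale.Agent.P113.H760

variable {σ : Type*}

/-- Incompatible words: they differ at some common position. -/
def Inc : List σ → List σ → Prop
  | s :: α, t :: β => s ≠ t ∨ Inc α β
  | _, _ => False

@[simp] theorem inc_cons (s t : σ) (α β : List σ) : Inc (s :: α) (t :: β) ↔ (s ≠ t ∨ Inc α β) :=
  Iff.rfl

@[simp] theorem inc_nil_left (β : List σ) : Inc [] β ↔ False := by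
  cases β <;> simp [Inc]

@[simp] theorem inc_nil_right (β : List σ) : Inc β [] ↔ False := by
  cases β <;> simp [Inc]

/-- A digit assignment with base `2 N`. -/
structure Dig (σ : Type*) where
  N : ℕ
  pos : 0 < N
  dig : σ → ℕ
  lt : ∀ s, dig s < N
  inj : Function.Injective dig

variable (D : Dig σ)

/-- The base as a rational number. -/
def Dig.b : ℚ := 2 * D.N

theorem Dig.b_ge : 2 ≤ D.b := by
  have h : (1 : ℚ) ≤ D.N := by exact_mod_cast D.pos
  simp only [Dig.b]
  linarith

theorem Dig.b_pos : 0 < D.b := by linarith [D.b_ge]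

/-- The value of the word `w` with tail value `u`. -/
def Dig.ext : List σ → ℚ → ℚ
  | [], u => u
  | s :: w, u => (2 * D.dig s + Dig.ext w u) / D.b

@[simp] theorem Dig.ext_nil (u : ℚ) : D.ext [] u = u := rfl

@[simp] theorem Dig.ext_cons (s : σ) (w : List σ) (u : ℚ) :
    D.ext (s :: w) u = (2 * D.dig s + D.ext w u) / D.b := rfl

theorem Dig.ext_append (α β : List σ) (u : ℚ) : D.ext (α ++ β) u = D.ext α (D.ext β u) := by
  induction α with
  | nil => rfl
  | cons s α ih => simp [ih]

theorem Dig.dig_le (s : σ) : (2 * D.dig s + 1 : ℚ) < D.b := by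
  have h : (D.dig s : ℚ) + 1 ≤ D.N := by exact_mod_cast D.lt s
  simp only [Dig.b]
  linarith

theorem Dig.ext_nonneg (w : List σ) {u : ℚ} (hu : 0 ≤ u) : 0 ≤ D.ext w u := by
  induction w with
  | nil => simpa using hu
  | cons s w ih =>
    have := D.b_pos
    simp only [Dig.ext_cons]
    positivity

theorem Dig.ext_le_one (w : List σ) {u : ℚ} (hu : u ≤ 1) : D.ext w u ≤ 1 := by
  induction w with
  | nil => simpa using hu
  | cons s w ih =>
    rw [Dig.ext_cons, div_le_one D.b_pos]
    have := D.dig_le s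
    linarith

theorem Dig.ext_affine (w : List σ) (u : ℚ) : D.ext w u = D.ext w 0 + u / D.b ^ w.length := by
  induction w with
  | nil => simp
  | cons s w ih =>
    have hb := D.b_pos.ne'
    rw [Dig.ext_cons, Dig.ext_cons, ih, List.length_cons, pow_succ]
    field_simp
    ring

theorem Dig.ext_sep {α β : List σ} (h : Inc α β) :
    D.ext α 1 < D.ext β 0 ∨ D.ext β 1 < D.ext α 0 := by
  induction α generalizing β with
  | nil => simp at h
  | cons s α ih =>
    cases β with
    | nil => simp at h
    | cons t β =>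
      simp only [Dig.ext_cons]
      rw [div_lt_div_iff_of_pos_right D.b_pos, div_lt_div_iff_of_pos_right D.b_pos]
      have a1 := D.ext_le_one α (le_refl 1)
      have a2 := D.ext_nonneg α (le_refl 0)
      have b1 := D.ext_le_one β (le_refl 1)
      have b2 := D.ext_nonneg β (le_refl 0)
      rcases lt_trichotomy (D.dig s) (D.dig t) with hlt | heq | hgt
      · left
        have : (D.dig s : ℚ) + 1 ≤ D.dig t := by exact_mod_cast hlt
        linarith
      · have hst : s = t := D.inj heq
        subst hst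
        have h' : Inc α β := by simpa using h
        rcases ih h' with h1 | h1
        · left; linarith
        · right; linarith
      · right
        have : (D.dig t : ℚ) + 1 ≤ D.dig s := by exact_mod_cast hgt
        linarith

/-- The coordinate of a word with tail value `u`. -/
def Dig.co (w : List σ) (u : ℚ) : ℚ := 1 / 4 + D.ext w u / 4

/-- The width of the cylinder of a word. -/
def Dig.wd (w : List σ) : ℚ := 1 / (4 * D.b ^ w.length)

theorem Dig.wd_pos (w : List σ) : 0 < D.wd w := by
  have := D.b_pos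
  unfold Dig.wd
  positivity

theorem Dig.wd_le (w : List σ) : D.wd w ≤ 1 / 4 := by
  have h1 : 1 ≤ D.b ^ w.length := one_le_pow₀ (by linarith [D.b_ge])
  unfold Dig.wd
  apply one_div_le_one_div_of_le <;> linarith

theorem Dig.co_affine (w : List σ) (u : ℚ) : D.co w u = D.co w 0 + D.wd w * u := by
  have hb := D.b_pos.ne'
  unfold Dig.co Dig.wd
  rw [D.ext_affine w u]
  field_simp
  ring

theorem Dig.co_ge (w : List σ) {u : ℚ} (hu : 0 ≤ u) : 1 / 4 ≤ D.co w u := by
  have := D.ext_nonneg w hu
  unfold Dig.co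
  linarith

theorem Dig.co_le (w : List σ) {u : ℚ} (hu : u ≤ 1) : D.co w u ≤ 1 / 2 := by
  have := D.ext_le_one w hu
  unfold Dig.co
  linarith

theorem Dig.co_sep {α β : List σ} (h : Inc α β) :
    D.co α 0 + D.wd α < D.co β 0 ∨ D.co β 0 + D.wd β < D.co α 0 := by
  have e1 : D.co α 0 + D.wd α = D.co α 1 := by rw [D.co_affine α 1]; ring
  have e2 : D.co β 0 + D.wd β = D.co β 1 := by rw [D.co_affine β 1]; ring
  rw [e1, e2]
  unfold Dig.co
  rcases D.ext_sep h with h | h
  · left; linarith
  · right; linarith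

/-- The box of a pair of prefixes. -/
def Dig.box (p : List σ × List σ) : Box := ⟨D.co p.1 0, D.wd p.1, D.co p.2 0, D.wd p.2⟩

/-- The point of a pair of words (with blank tails). -/
def Dig.pt (p : List σ × List σ) : ℚ × ℚ := (D.co p.1 0, D.co p.2 0)

theorem Dig.box_good (p : List σ × List σ) : (D.box p).Good := by
  refine ⟨⟨D.co_ge _ le_rfl, D.wd_pos _, ?_⟩, ⟨D.co_ge _ le_rfl, D.wd_pos _, ?_⟩⟩
  · have h1 := D.co_le p.1 (zero_le_one)
    have h2 := D.wd_le p.1
    simp only [Dig.box]
    linarith
  · have h1 := D.co_le p.2 (zero_le_one)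
    have h2 := D.wd_le p.2
    simp only [Dig.box]
    linarith

/-- Incompatible pairs of prefixes. -/
def PInc (p p' : List σ × List σ) : Prop := Inc p.1 p'.1 ∨ Inc p.2 p'.2

theorem Dig.box_sep {p p' : List σ × List σ} (h : PInc p p') : (D.box p).Sep (D.box p') := by
  rcases h with h | h
  · exact Or.inl (D.co_sep h)
  · exact Or.inr (D.co_sep h)

theorem Dig.box_mem (p : List σ × List σ) (U V : List σ) :
    (D.box p).Mem (D.pt (p.1 ++ U, p.2 ++ V)) := by
  have key : ∀ α U : List σ, D.co α 0 ≤ D.co (α ++ U) 0 ∧ D.co (α ++ U) 0 ≤ D.co α 0 + D.wd α := by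
    intro α U
    have h0 := D.ext_nonneg U (le_refl 0)
    have h1 := D.ext_le_one U (zero_le_one)
    have e : D.co (α ++ U) 0 = D.co α 0 + D.wd α * D.ext U 0 := by
      rw [← D.co_affine]
      unfold Dig.co
      rw [D.ext_append]
    have hw := D.wd_pos α
    rw [e]
    constructor
    · nlinarith
    · nlinarith
  exact ⟨(key _ _).1, (key _ _).2, (key _ _).1, (key _ _).2⟩

/-- The rule replacing the pair of prefixes `p` by `p'`. -/
def Dig.rule (p p' : List σ × List σ) : Rule where
  src := D.box p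
  c1 := D.co p'.1 0
  r1 := D.wd p'.1 / D.wd p.1
  c2 := D.co p'.2 0
  r2 := D.wd p'.2 / D.wd p.2

theorem Dig.rule_tgt (p p' : List σ × List σ) : (D.rule p p').tgt = D.box p' := by
  have h1 := (D.wd_pos p.1).ne'
  have h2 := (D.wd_pos p.2).ne'
  simp only [Rule.tgt, Dig.rule, Dig.box]
  rw [div_mul_cancel₀ _ h1, div_mul_cancel₀ _ h2]

theorem Dig.rule_good (p p' : List σ × List σ) : (D.rule p p').Good := by
  have h1 := (D.wd_pos p.1)
  have h2 := (D.wd_pos p.2)
  have h1' := (D.wd_pos p'.1)
  have h2' := (D.wd_pos p'.2)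
  refine ⟨D.box_good p, ?_, div_pos h1' h1, div_pos h2' h2, ?_, ?_⟩
  · rw [D.rule_tgt]
    exact D.box_good p'
  · have e1 := D.co_le p.1 (zero_le_one)
    have e2 := D.wd_le p'.1
    simp only [Dig.rule, Dig.box]
    rw [div_mul_cancel₀ _ h1.ne']
    linarith
  · have e1 := D.co_le p.2 (zero_le_one)
    have e2 := D.wd_le p'.2
    simp only [Dig.rule, Dig.box]
    rw [div_mul_cancel₀ _ h2.ne']
    linarith

theorem Dig.rule_map (p p' : List σ × List σ) (U V : List σ) :
    (D.rule p p').map (D.pt (p.1 ++ U, p.2 ++ V)) = D.pt (p'.1 ++ U, p'.2 ++ V) := by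
  have key : ∀ α α' U : List σ, D.co α' 0 + D.wd α' / D.wd α * (D.co (α ++ U) 0 - D.co α 0) =
      D.co (α' ++ U) 0 := by
    intro α α' U
    have e : ∀ β : List σ, D.co (β ++ U) 0 = D.co β 0 + D.wd β * D.ext U 0 := by
      intro β
      rw [← D.co_affine]
      unfold Dig.co
      rw [D.ext_append]
    have h1 := (D.wd_pos α).ne'
    rw [e, e]
    field_simp
    ring
  simp only [Rule.map, Dig.rule, Dig.box, Dig.pt]
  exact Prod.ext (key _ _ _) (key _ _ _)

end Vale.Agent.P113.H760
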